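import Mathlib
import Vale.Agent.P368.Upper

/-!
# P368: the number of multi-qubit gates of a circuit for parity

Circuits of arbitrary one-qubit unitaries and generalized Toffoli gates (any number of controls),
of any depth and with any number of ancillas. If such a circuit computes the parity of `n` bits
exactly and cleanly, then it has at least `n` multi-qubit gates, and `n` are enough.
-/

namespace Vale.Agent.Results.P368.GateCount

open Vale.Agent.P368

theorem result {N : Type} [Fintype N] [DecidableEq N] {n : ℕ} (ι : Fin n ↪ N) (out : N)
    (hout : out ∉ Set.range ι) :
    (∀ C : List (Gate N), Computes ι out C → n ≤ toffolis C) ∧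
      ∃ C : List (Gate N), Computes ι out C ∧ toffolis C = n :=
  ⟨fun C hC => lower ι out hout C hC, upper ι out hout⟩

end Vale.Agent.Results.P368.GateCount
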