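import Vale.Agent.P368b.Exact
import Vale.Agent.P368b.Approx

/-!
# P368: exact parity needs many multiqubit gates on the input qubits, for every depth and every
number of ancillas
-/

namespace Vale.Agent.Results.P368.InputGates

open Vale.Agent.P368b Finset Function

theorem odd_succ (N : ℕ) : decide (Odd (N + 1)) = !decide (Odd N) := by
  rw [← decide_not]
  exact decide_eq_decide.2 Nat.odd_add_one

theorem par_flip {n : ℕ} (x : Fin n → Bool) (i : Fin n) :
    par (update x i (!(x i))) = !(par x) := by
  unfold par
  cases hx : x i with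
  | false =>
    have e : (univ.filter fun j => update x i (!false) j = true) =
        insert i (univ.filter fun j => x j = true) := by
      ext j
      by_cases hj : j = i
      · subst hj
        simp
      · simp [update_of_ne hj, hj]
    rw [e, card_insert_of_notMem (by simp [hx])]
    exact odd_succ _
  | true =>
    have hi : i ∈ univ.filter fun j => x j = true := by simp [hx]
    have e : (univ.filter fun j => update x i (!true) j = true) =
        (univ.filter fun j => x j = true).erase i := by
      ext j
      by_cases hj : j = i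
      · subst hj
        simp
      · simp [update_of_ne hj, hj]
    have h1 : (univ.filter fun j => x j = true).card =
        ((univ.filter fun j => x j = true).erase i).card + 1 := by
      rw [card_erase_of_mem hi]
      have := card_pos.2 ⟨i, hi⟩
      omega
    rw [e, h1, odd_succ, Bool.not_not]

variable {n : ℕ} {R : Type} [Fintype R] [DecidableEq R]

theorem card_inputs : (inputs n R).card = n := by
  simp [inputs]

theorem flip_inputs (q : Fin n ⊕ R) (hq : q ∈ inputs n R) (y : Fin n ⊕ R → Bool) :
    par (fun i => update y q (!(y q)) (Sum.inl i)) = !(par fun i => y (Sum.inl i)) := by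
  unfold inputs at hq
  rw [mem_map] at hq
  obtain ⟨i, -, rfl⟩ := hq
  have e : (fun j => update y (Embedding.inl i) (!(y (Embedding.inl i))) (Sum.inl j)) =
      update (fun j => y (Sum.inl j)) i (!(y (Sum.inl i))) := by
    funext j
    by_cases hj : j = i
    · subst hj
      simp
    · rw [update_of_ne hj, update_of_ne (by simpa using hj)]
  rw [e]
  exact par_flip (fun j => y (Sum.inl j)) i

theorem start_of (y : Fin n ⊕ R → Bool) (hy : ∀ p, p ∉ inputs n R → y p = false) :
    start (fun i => y (Sum.inl i)) = y := by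
  funext p
  cases p with
  | inl i => rfl
  | inr r => exact (hy (Sum.inr r) (by simp [inputs])).symm

theorem clean (c : List (Gate (Fin n ⊕ R))) (t : R) (hc : ComputesCleanly c t) :
    n ≤ hitCount (inputs n R) c := by
  have h := clean_bound c (inputs n R) (Sum.inr t) (by simp [inputs])
    (fun y => par fun i => y (Sum.inl i)) flip_inputs (fun y hy => by
      have := hc (fun i => y (Sum.inl i))
      rw [start_of y hy] at this
      exact this)
  rwa [card_inputs] at h

theorem exact' (c : List (Gate (Fin n ⊕ R))) (o : Fin n ⊕ R) (hc : ComputesExactly c o) :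
    n ≤ 2 * hitCount (inputs n R) c + 1 := by
  have h := exact_bound c (inputs n R) o
    (fun y => par fun i => y (Sum.inl i)) flip_inputs (fun y hy x hx => by
      have := hc (fun i => y (Sum.inl i)) x hx
      rw [start_of y hy] at this
      exact this)
  rwa [card_inputs] at h

theorem approx (c : List (Gate (Fin n ⊕ R))) (t : R) (δ : ℝ) (hδ : δ ^ 2 < 1 / 2)
    (hc : ApproximatesCleanly c t δ) : n ≤ hitCount (inputs n R) c := by
  have h := approx_bound c (inputs n R) (Sum.inr t) (by simp [inputs])
    (fun y => par fun i => y (Sum.inl i)) (fun q hq y b hb => by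
      have hb' : b = !(y q) := by
        revert hb
        cases b <;> cases y q <;> simp
      rw [hb']
      exact flip_inputs q hq y) (fun y b => by
      congr 1) (δ ^ 2) (sq_nonneg δ) hδ (fun ψ hψ => hc ψ fun x hx r =>
        hψ x hx (Sum.inr r) (by simp [inputs]))
  rwa [card_inputs] at h

theorem multi_of_hits {U : Finset (Fin n ⊕ R)} {g : Gate (Fin n ⊕ R)} (h : g.Hits U) :
    g.IsMulti ∧ 1 ≤ (U ∩ g.support).card := by
  cases g with
  | one q u => exact h.elim
  | toffoli S t hS ht =>
    obtain ⟨p, hp, h2⟩ := h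
    refine ⟨trivial, card_pos.2 ⟨p, mem_inter.2 ⟨hp, ?_⟩⟩⟩
    rcases h2 with rfl | h2
    · exact mem_insert_self _ _
    · exact mem_insert_of_mem h2

theorem result (n : ℕ) (R : Type) [Fintype R] [DecidableEq R] :
    (∀ (c : List (Gate (Fin n ⊕ R))) (t : R), ComputesCleanly c t →
      n ≤ hitCount (inputs n R) c) ∧
    (∀ (c : List (Gate (Fin n ⊕ R))) (o : Fin n ⊕ R), ComputesExactly c o →
      n ≤ 2 * hitCount (inputs n R) c + 1) ∧
    (∀ (Ls : List (List (Gate (Fin n ⊕ R)))), (∀ L ∈ Ls, IsLayer L) → ∀ t : R,
      ComputesCleanly Ls.flatten t → 1 ≤ n →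
      ∃ g ∈ Ls.flatten, g.IsMulti ∧ 1 ≤ (inputs n R ∩ g.support).card ∧
        (inputs n R ∩ g.support).card ≤ entDepth Ls) ∧
    (∀ (Ls : List (List (Gate (Fin n ⊕ R)))), (∀ L ∈ Ls, IsLayer L) → ∀ o : Fin n ⊕ R,
      ComputesExactly Ls.flatten o → 2 * entDepth Ls + 2 ≤ n →
      ∃ g ∈ Ls.flatten, g.IsMulti ∧ 1 ≤ (inputs n R ∩ g.support).card ∧
        (inputs n R ∩ g.support).card ≤ 2 * entDepth Ls) ∧
    (∀ (c : List (Gate (Fin n ⊕ R))) (t : R) (δ : ℝ), δ ^ 2 < 1 / 2 →
      ApproximatesCleanly c t δ → n ≤ hitCount (inputs n R) c) ∧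
    (∀ (Ls : List (List (Gate (Fin n ⊕ R)))), (∀ L ∈ Ls, IsLayer L) → ∀ (t : R) (δ : ℝ),
      δ ^ 2 < 1 / 2 → ApproximatesCleanly Ls.flatten t δ → 1 ≤ n →
      ∃ g ∈ Ls.flatten, g.IsMulti ∧ 1 ≤ (inputs n R ∩ g.support).card ∧
        (inputs n R ∩ g.support).card ≤ entDepth Ls) := by
  refine ⟨clean, exact', fun Ls hL t hc hn => ?_, fun Ls hL o hc hn => ?_, approx,
    fun Ls hL t δ hδ hc hn => ?_⟩
  · by_contra hno
    push Not at hno
    have h1 := depth_count (inputs n R) (entDepth Ls + 1) Ls hL (fun g hg hh => by
      obtain ⟨h2, h3⟩ := multi_of_hits hh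
      exact hno g hg h2 h3)
    have h2 := clean Ls.flatten t hc
    rw [card_inputs] at h1
    nlinarith
  · by_contra hno
    push Not at hno
    have h1 := depth_count (inputs n R) (2 * entDepth Ls + 1) Ls hL (fun g hg hh => by
      obtain ⟨h2, h3⟩ := multi_of_hits hh
      exact hno g hg h2 h3)
    have h2 := exact' Ls.flatten o hc
    rw [card_inputs] at h1
    nlinarith
  · by_contra hno
    push Not at hno
    have h1 := depth_count (inputs n R) (entDepth Ls + 1) Ls hL (fun g hg hh => by
      obtain ⟨h2, h3⟩ := multi_of_hits hh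
      exact hno g hg h2 h3)
    have h2 := approx Ls.flatten t δ hδ hc
    rw [card_inputs] at h1
    nlinarith

end Vale.Agent.Results.P368.InputGates
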