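import Mathlib
import Vale.Agent.P368.Upper
import Vale.Agent.P368.Lower3
import Vale.Agent.P368.Unclean

/-!
# P368: multi-qubit gates on the input qubits, clean and unclean, with advice

Circuits of arbitrary one-qubit unitaries and generalized Toffoli gates, of any depth, with any
number of ancillas and any arity. Clean exact parity needs `n` multi-qubit gates which act on input
qubits, and `n` multi-qubit gates are enough. If only one designated qubit has to give the parity,
and the other qubits start in an arbitrary state (advice), at least `n / 2` multi-qubit gates act on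
input qubits (at least `(n - 1) / 2` if the designated qubit is an input qubit).
-/

namespace Vale.Agent.Results.P368.InputGatesAdvice

open Vale.Agent.P368

theorem result {N : Type} [Fintype N] [DecidableEq N] {n : ℕ} (ι : Fin n ↪ N) (out : N) :
    (out ∉ Set.range ι →
      (∀ C : List (Gate N), Computes ι out C → n ≤ hits (Finset.univ.map ι) C) ∧
        ∃ C : List (Gate N), Computes ι out C ∧ toffolis C = n) ∧
      ∀ χ : State N, Advice ι χ → χ ≠ 0 → ∀ C : List (Gate N), Decides ι out χ C →
        n ≤ 2 * hits (Finset.univ.map ι) C + 1 ∧
          (out ∉ Set.range ι → n ≤ 2 * hits (Finset.univ.map ι) C) :=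
  ⟨fun hout => ⟨fun C hC => lower3 ι out hout C hC, upper ι out hout⟩,
    fun χ hχ hχ0 C hC => lower2 ι out χ hχ hχ0 C hC⟩

end Vale.Agent.Results.P368.InputGatesAdvice
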